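import Crest.Agent.X212.Kop92.Ch
import Crest.Agent.X212.Sob92.Ev
import Crest.Agent.X212.Eqv71.Alg

/-!
# Row 212, layer S (helper92): the smeared cut `l (a, φ) = ∫ e^{i K a} h(η, φ)`
-/

set_option autoImplicit false
set_option linter.unusedSectionVars false
noncomputable section
open scoped Manifold ContDiff Topology InnerProductSpace
open MeasureTheory Set Function Filter Metric

namespace Crest.Agent.X212.Kop92
open An Sob92 Met55 Eqv71

variable {E : Type} [NormedAddCommGroup E] [NormedSpace ℝ E] [FiniteDimensional ℝ E]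
  [MeasurableSpace E] [BorelSpace E]
  {HM : Type} [TopologicalSpace HM] {I : ModelWithCorners ℝ E HM} [I.Boundaryless]
  {M : Type} [TopologicalSpace M] [ChartedSpace HM M] [IsManifold I ∞ M]
  [MeasurableSpace M] [T2Space M] [BorelSpace M] [SecondCountableTopology M]
  {ι : Type} [Fintype ι] {κ : Type} [Fintype κ]
  {X : Type} [NormedAddCommGroup X] [NormedSpace ℝ X] [FiniteDimensional ℝ X]
  [MeasurableSpace X] [BorelSpace X]
  {N : Type} [NormedAddCommGroup N] [NormedSpace ℝ N]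

/-- the hermitian product as a bilinear map -/
def hmL (J : En κ) : Eu κ →L[ℝ] Eu κ →L[ℝ] ℂ :=
  (ContinuousLinearMap.compL ℝ _ _ _ Complex.ofRealCLM ∘L innerSL ℝ) -
    (ContinuousLinearMap.compL ℝ _ _ _ ((ContinuousLinearMap.id ℝ ℝ).smulRight Complex.I) ∘L
      (ContinuousLinearMap.compL ℝ _ _ _).flip J ∘L innerSL ℝ)

theorem hmL_apply (J : En κ) (v w : Eu κ) : hmL J v w = hm J v w :=
  Complex.ext (by simp [hmL, hm]; rfl) (by simp [hmL, hm]; rfl)

theorem hm_cs_right {J : En κ} (h : J * J = -1) (c : ℂ) (a b : Eu κ) :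
    hm J a (cs J c b) = c * hm J a b := by
  have : ∀ a, J (J a) = -a := fun a => congrArg (fun T : En κ => T a) h
  refine Complex.ext ?_ ?_ <;> simp [hm, cs, inner_add_right, real_inner_smul_right, this]
  all_goals ring

section cm
variable {S : Set M} [CompactSpace S]

theorem exists_clm {H : Type} [NormedAddCommGroup H] [NormedSpace ℝ H] {g : H → M → ℂ}
    (hc : ∀ h, ContinuousOn (g h) S) (ha : ∀ h h', ∀ x ∈ S, g (h + h') x = g h x + g h' x)
    (hs : ∀ (r : ℝ) h, ∀ x ∈ S, g (r • h) x = r • g h x) {C : ℝ} (h0 : 0 ≤ C)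
    (hb : ∀ h, ∀ x ∈ S, ‖g h x‖ ≤ C * ‖h‖) : ∃ T : H →L[ℝ] C(S, ℂ), ∀ h x, T h x = g h x :=
  ⟨LinearMap.mkContinuous
    { toFun := fun h => ⟨S.domRestrict (g h), (hc h).domRestrict⟩
      map_add' := fun h h' => ContinuousMap.ext fun x => ha h h' x x.2
      map_smul' := fun r h => ContinuousMap.ext fun x => hs r h x x.2 } C
    fun h => (ContinuousMap.norm_le _ (by positivity)).2 fun x => hb h x x.2, fun _ _ => rfl⟩

theorem exists_int (μ : Measure M) [IsFiniteMeasureOnCompacts μ] :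
    ∃ L : C(S, ℂ) →L[ℝ] ℂ, ∀ (f : C(S, ℂ)) (g : M → ℂ), (∀ x : S, f x = g x) →
      (∀ x ∉ S, g x = 0) → L f = ∫ x, g x ∂μ := by
  have hS : IsCompact S := isCompact_iff_compactSpace.2 inferInstance
  have : IsFiniteMeasure (μ.comap (Subtype.val : S → M)) := ⟨by
    rw [comap_subtype_coe_apply hS.measurableSet]; simpa using hS.measure_lt_top⟩
  have i : ∀ f : C(S, ℂ), Integrable f (μ.comap Subtype.val) := fun f =>
    f.continuous.integrable_of_hasCompactSupport (.of_compactSpace _)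
  refine ⟨LinearMap.mkContinuous
    { toFun := fun f => ∫ x, f x ∂μ.comap Subtype.val
      map_add' := fun f g => integral_add (i f) (i g)
      map_smul' := fun r f => integral_smul r f } ((μ.comap (Subtype.val : S → M)).real univ)
    fun f => (norm_integral_le_of_norm_le_const (.of_forall f.norm_coe_le_norm)).trans_eq
      (mul_comm _ _), fun f g e h0 => ?_⟩
  change ∫ x, f x ∂_ = _
  simp only [e]
  rw [integral_subtype_comap hS.measurableSet, setIntegral_eq_integral_of_forall_compl_eq_zero h0]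

theorem exp_apply (f : C(S, ℂ)) (x : S) : NormedSpace.exp f x = Complex.exp (f x) := by
  rw [Complex.exp_eq_exp_ℂ]
  exact NormedSpace.map_exp_of_mem_ball (𝕂 := ℂ) (ContinuousMap.evalAlgHom ℂ ℂ x)
    (continuous_eval_const x) f
    ((NormedSpace.expSeries_radius_eq_top ℂ C(S, ℂ)).symm ▸ edist_lt_top _ _)

end cm

variable {F : Pre I M ι}

namespace Ch
variable (c : Ch X F) (ρ : X → ℝ) (R : ℝ) (J : En κ) (η : M → Eu κ)

/-- the compact set which carries the data -/
def S : Set M := c.Ξ '' closedBall 0 R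

/-- the phase `e^{i K a}` -/
def ph (a : M → Eu ι) (x : M) : ℂ := Complex.exp (c.KM ρ a x * Complex.I)

/-- **the cut** -/
def l (a : M → Eu ι) (φ : M → Eu κ) : ℂ := ∫ x, c.ph ρ a x * hm J (η x) (φ x) ∂F.μ

/-- its derivative -/
def dl (a : M → Eu ι) (φ : M → Eu κ) (α : M → Eu ι) (ψ : M → Eu κ) : ℂ :=
  ∫ x, c.ph ρ a x * (hm J (η x) (ψ x) + c.KM ρ α x * Complex.I * hm J (η x) (φ x)) ∂F.μ

/-- admissible data of a cut -/
structure Dat : Prop where
  sρ : ContDiff ℝ ∞ ρ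
  rρ : Sp R ρ
  one : ∫ y, ρ y ∂leb X = 1
  sη : Sm I η
  rη : ∀ x, η x ≠ 0 → x ∈ c.S R

theorem isCompact_S : IsCompact (c.S R) := (isCompact_closedBall 0 R).image c.cont

instance : CompactSpace (c.S R) := isCompact_iff_compactSpace.1 (c.isCompact_S R)

variable {c ρ R J η} {a b α : M → Eu ι} {φ ψ : M → Eu κ} {x : M}

theorem S_sub (hx : x ∈ c.S R) : x ∈ c.Ξ.target := let ⟨y, _, e⟩ := hx; e ▸ c.map y

theorem S_norm (hx : x ∈ c.S R) : ‖c.Ξ.symm x‖ ≤ R := by
  obtain ⟨y, hy, rfl⟩ := hx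
  simpa using hy

theorem exists_R (hK : IsCompact (tsupport η)) (hs : tsupport η ⊆ c.Ξ.target)
    (hρ : HasCompactSupport ρ) : ∃ R₀, ∀ R ≥ R₀, Sp R ρ ∧ ∀ x, η x ≠ 0 → x ∈ c.S R := by
  obtain ⟨R₁, h1⟩ := exists_sp hρ
  obtain ⟨R₂, h2⟩ := (hK.image_of_continuousOn
    (c.Ξ.continuousOn_symm.mono hs)).isBounded.subset_closedBall 0
  exact ⟨max R₁ R₂, fun R hR => ⟨h1.mono ((le_max_left _ _).trans hR), fun x hx =>
    ⟨_, closedBall_subset_closedBall ((le_max_right _ _).trans hR)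
      (h2 ⟨x, subset_tsupport _ hx, rfl⟩), c.Ξ.right_inv (hs (subset_tsupport _ hx))⟩⟩⟩

theorem sm_S {f : M → N} (h : ∀ x ∈ c.Ξ.target, ContMDiffAt I 𝓘(ℝ, N) ∞ f x)
    (h0 : ∀ x ∉ c.S R, f x = 0) : Sm I f := fun x => by
  by_cases hx : x ∈ c.S R
  · exact h x (S_sub hx)
  · exact contMDiffAt_const.congr_of_eventuallyEq
      (eventually_of_mem ((c.isCompact_S R).isClosed.isOpen_compl.mem_nhds hx) h0)

theorem int_S {f : M → N} (h : ContinuousOn f (c.S R)) (h0 : ∀ x ∉ c.S R, f x = 0) :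
    Integrable f F.μ :=
  (h.integrableOn_compact (c.isCompact_S R)).integrable_of_forall_notMem_eq_zero h0

@[simp] theorem norm_ph : ‖c.ph ρ a x‖ = 1 := Complex.norm_exp_ofReal_mul_I _

theorem l_smul (r : ℝ) : c.l ρ J (r • η) a φ = r * c.l ρ J η a φ := by
  simp only [l, ← hmL_apply, Pi.smul_apply, map_smul, smul_apply, Complex.real_smul,
    mul_left_comm _ (r : ℂ), integral_const_mul]

theorem l_cs (hJ : J * J = -1) (w : ℂ) :
    c.l ρ J η a (fun x => cs J w (φ x)) = w * c.l ρ J η a φ := by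
  simp only [l, hm_cs_right hJ, mul_left_comm _ w, integral_const_mul]

namespace Dat
variable (d : c.Dat ρ R η)
include d

theorem off (hx : x ∉ c.S R) : η x = 0 := by_contra fun h => hx (d.rη x h)

theorem hm_off (hx : x ∉ c.S R) (v : Eu κ) : hm J (η x) v = 0 := by
  simp [← hmL_apply, d.off hx]

theorem mono {R' : ℝ} (h : R ≤ R') : c.Dat ρ R' η :=
  ⟨d.sρ, d.rρ.mono h, d.one, d.sη, fun x hx =>
    image_mono (closedBall_subset_closedBall h) (d.rη x hx)⟩

theorem add {η' : M → Eu κ} (d' : c.Dat ρ R η') : c.Dat ρ R (η + η') :=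
  ⟨d.sρ, d.rρ, d.one, d.sη.add d'.sη, fun x hx => by_contra fun h =>
    hx (by simp [d.off h, d'.off h])⟩

theorem smul (r : ℝ) : c.Dat ρ R (r • η) :=
  ⟨d.sρ, d.rρ, d.one, (show Sm I fun _ => r from contMDiff_const).smul d.sη, fun x hx => by_contra fun h =>
    hx (by simp [d.off h])⟩

theorem cK (ha : Continuous a) : ContinuousOn (fun x => (c.KM ρ a x : ℂ) * Complex.I) (c.S R) :=
  (Complex.continuous_ofReal.comp_continuousOn ((c.continuousOn_KM d.sρ.continuous d.rρ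
    (ha.comp c.cont)).mono fun _ => S_sub)).mul continuousOn_const

theorem cph (ha : Continuous a) : ContinuousOn (c.ph ρ a) (c.S R) := (d.cK ha).cexp

theorem chm (hφ : Continuous φ) : Continuous fun x => hm J (η x) (φ x) := by
  simp only [← hmL_apply]
  exact ((hmL J).continuous.comp d.sη.continuous).clm_apply hφ

theorem l_add {η' : M → Eu κ} (d' : c.Dat ρ R η') (ha : Continuous a) (hφ : Continuous φ) :
    c.l ρ J (η + η') a φ = c.l ρ J η a φ + c.l ρ J η' a φ := by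
  have i : ∀ {η}, c.Dat ρ R η → Integrable (fun x => c.ph ρ a x * hm J (η x) (φ x)) F.μ :=
    fun d => int_S ((d.cph ha).mul (d.chm hφ).continuousOn) fun x hx => by
      simp only [d.hm_off hx, mul_zero]
  rw [l, l, l, ← integral_add (i d) (i d')]
  simp only [← hmL_apply, Pi.add_apply, map_add, add_apply, mul_add]

/-- locality -/
theorem l_congr {a' : M → Eu ι} {φ' : M → Eu κ} (h1 : EqOn a a' (c.S R)) (h2 : EqOn φ φ' (c.S R)) :
    c.l ρ J η a φ = c.l ρ J η a' φ' := by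
  refine congrArg (integral _) (funext fun x => ?_)
  by_cases hx : x ∈ c.S R
  · rw [ph, ph, h2 hx, c.KM_congr d.rρ (S_norm hx) fun y hy => h1 ⟨y, by simpa using hy, rfl⟩]
  · simp only [d.hm_off hx, mul_zero]

theorem l_of_ph (hJ : J * J = -1) (ha : Continuous a) (hb : Continuous b) {u : M → ℂ} {ζ : ℂ}
    (h : ∀ x ∈ c.Ξ.target, u x = ζ * c.ph ρ b x) :
    c.l ρ J η (a - b) (fun x => cs J (u x) (φ x)) = ζ * c.l ρ J η a φ := by
  rw [l, l, ← integral_const_mul]
  refine congrArg _ (funext fun x => ?_)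
  by_cases hx : x ∈ c.S R
  · have := c.KM_add d.sρ.continuous d.rρ ((ha.sub hb).comp c.cont) (hb.comp c.cont) x
    rw [hm_cs_right hJ, h x (S_sub hx), ph, ph, ph, show a = (a - b) + b by simp, this,
      Complex.ofReal_add, add_mul, Complex.exp_add, add_sub_cancel_right]
    ring
  · simp only [d.hm_off hx, mul_zero]

/-- **real gauge transformations** -/
theorem l_gauge (hJ : J * J = -1) (ha : Continuous a) (hb : Continuous b) {χ : M → ℝ}
    (hχ : ∀ x ∈ c.Ξ.target, MDifferentiableAt I 𝓘(ℝ, ℝ) χ x)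
    (e : ∀ x ∈ c.Ξ.target, ∀ i, b x i = F.D i χ x) :
    c.l ρ J η (a - b) (fun x => cs J (Complex.exp (χ x * Complex.I)) (φ x)) =
      Complex.exp ((∫ y, ρ y * χ (c.Ξ y) ∂leb X : ℝ) * Complex.I) * c.l ρ J η a φ :=
  d.l_of_ph hJ ha hb fun x hx => by
    rw [ph, c.KM_d d.sρ.continuous d.rρ d.one hχ (hb.comp c.cont) e hx, ← Complex.exp_add,
      ← add_mul, ← Complex.ofReal_add, add_sub_cancel]

/-- **circle valued gauge transformations** -/
theorem l_circ (hJ : J * J = -1) (ha : Continuous a) (hb : Continuous b) {u : M → ℂ}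
    (hu : ∀ x ∈ c.Ξ.target, MDifferentiableAt I 𝓘(ℝ, ℂ) u x) (u1 : ∀ x ∈ c.Ξ.target, ‖u x‖ = 1)
    (e : ∀ x ∈ c.Ξ.target, ∀ i, F.D i u x = b x i • (Complex.I * u x)) : ∃ ζ : ℂ, ‖ζ‖ = 1 ∧
      c.l ρ J η (a - b) (fun x => cs J (u x) (φ x)) = ζ * c.l ρ J η a φ :=
  let ⟨ζ, h1, h2⟩ := c.KM_log d.sρ.continuous d.rρ d.one hu u1 (hb.comp c.cont) e
  ⟨ζ, h1, d.l_of_ph hJ ha hb h2⟩

theorem sm_ph (ha : Sm I a) (hx : x ∈ c.Ξ.target) : ContMDiffAt I 𝓘(ℝ, ℂ) ∞ (c.ph ρ a) x :=
  (show ContDiff ℝ ∞ fun t : ℝ => Complex.exp (t * Complex.I) from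
    (Complex.ofRealCLM.contDiff.mul contDiff_const).cexp).contMDiff.contMDiffAt.comp x
    (c.contMDiffAt_KM d.sρ d.rρ ha hx)

/-- the spinor part of the gradient of `Re (conj w * l)` -/
theorem sm_grad (ha : Sm I a) (w : ℂ) :
    Sm I fun x => cs J (w * starRingEnd ℂ (c.ph ρ a x)) (η x) := by
  refine sm_S (c := c) (R := R) (fun x hx => ?_) fun x hx => by simp [cs, d.off hx]
  have h := (show ContDiff ℝ ∞ fun z : ℂ => w * starRingEnd ℂ z from contDiff_const.mul
    Complex.conjCLE.contDiff).contMDiff.contMDiffAt.comp x (d.sm_ph ha hx)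
  exact ((Complex.reCLM.contMDiff.contMDiffAt.comp x h).smul (d.sη x)).add
    ((Complex.imCLM.contMDiff.contMDiffAt.comp x h).smul (J.contMDiff.contMDiffAt.comp x (d.sη x)))

/-- **the derivative is an `L²` pairing with smooth compactly supported sections** -/
theorem exists_grad (hJ : J * J = -1) (hs : Skw J) (ha : Sm I a) (hφ : Sm I φ) (w : ℂ) :
    ∃ Y : M → Eu ι, Sm I Y ∧ HasCompactSupport Y ∧ tsupport Y ⊆ c.S R ∧
      (∀ x, ∃ v, Y x = c.θ (c.Ξ.symm x) v) ∧ ∀ α ψ, Continuous α → Continuous ψ →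
        (starRingEnd ℂ w * c.dl ρ J η a φ α ψ).re = ∫ x, ⟪Y x, α x⟫_ℝ ∂F.μ +
          ∫ x, ⟪cs J (w * starRingEnd ℂ (c.ph ρ a x)) (η x), ψ x⟫_ℝ ∂F.μ := by
  set Z := fun x => cs J (w * starRingEnd ℂ (c.ph ρ a x)) (η x)
  have z := d.sm_grad (J := J) ha w
  have z0 : ∀ x ∉ c.S R, Z x = 0 := fun x hx => by simp [Z, cs, d.off hx]
  obtain ⟨Y, y1, y2, y3, y4, y5⟩ := c.exists_Ks d.sρ d.rρ (g := fun x => ⟪Z x, J (φ x)⟫_ℝ)
    (Sob92.smooth_bil (innerSL ℝ) z (J.contMDiff.comp hφ))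
    fun x hx => by_contra fun h => hx (by rw [z0 x h, inner_zero_left])
  refine ⟨Y, y1, y2, y3, y4, fun α ψ hα hψ => ?_⟩
  have k := (c.continuousOn_KM d.sρ.continuous d.rρ (hα.comp c.cont)).mono fun _ => S_sub (R := R)
  have i1 : Integrable (fun x => ⟪Z x, J (φ x)⟫_ℝ * c.KM ρ α x) F.μ :=
    int_S ((z.continuous.inner (J.continuous.comp hφ.continuous)).continuousOn.mul k)
      fun x hx => by simp [z0 x hx]
  have i2 : Integrable (fun x => ⟪Z x, ψ x⟫_ℝ) F.μ :=
    int_S (c := c) (R := R) (z.continuous.inner hψ).continuousOn fun x hx => by simp [z0 x hx]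
  have i3 : Integrable (fun x => starRingEnd ℂ w * (c.ph ρ a x * (hm J (η x) (ψ x) +
      c.KM ρ α x * Complex.I * hm J (η x) (φ x)))) F.μ := int_S (continuousOn_const.mul
    ((d.cph ha.continuous).mul ((d.chm hψ).continuousOn.add ((d.cK hα).mul
      (d.chm hφ.continuous).continuousOn)))) fun x hx => by simp [d.hm_off hx]
  rw [← y5 α (hα.comp c.cont), ← integral_add i1 i2, dl, ← integral_const_mul,
    ← RCLike.re_to_complex, ← integral_re i3]
  refine congrArg _ (funext fun x => ?_)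
  have e : ∀ v, starRingEnd ℂ w * (c.ph ρ a x * hm J (η x) v) = hm J (Z x) v := fun v => by
    simp [Z, hm_cs_left hJ hs, mul_assoc]
  rw [mul_add, mul_add, e, mul_left_comm (c.ph ρ a x), mul_left_comm, e]
  simp [hm, add_comm, mul_comm]

variable {k : ℕ} {p : M → Eu ι →L[ℝ] Eu ι} {q : M → Eu κ →L[ℝ] Eu κ} {S₀ : ℝ}

/-- **the cut is smooth on the Sobolev scale** -/
theorem contDiff_l (hS : Sup F S₀) (hk : 4 ≤ k) (ha : Continuous a) (hφ : Continuous φ) :
    (ContDiff ℝ ∞ fun z : F.H k p × F.H k q =>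
      c.l ρ J η (a + F.val k p z.1) (φ + F.val k q z.2)) ∧
    ∀ z v : F.H k p × F.H k q, fderiv ℝ (fun z : F.H k p × F.H k q =>
      c.l ρ J η (a + F.val k p z.1) (φ + F.val k q z.2)) z v =
        c.dl ρ J η (a + F.val k p z.1) (φ + F.val k q z.2) (F.val k p v.1) (F.val k q v.2) := by
  have c1 := continuous_val (p := p) hS hk
  have c2 := continuous_val (p := q) hS hk
  have ad := fun {a b : M → Eu ι} (ha : Continuous a) (hb : Continuous b) =>
    c.KM_add d.sρ.continuous d.rρ (ha.comp c.cont) (hb.comp c.cont)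
  obtain ⟨C, C0, hC⟩ := c.exists_KM_le d.sρ.continuous d.rρ
  obtain ⟨D, hD⟩ := (c.isCompact_S R).exists_bound_of_continuousOn
    ((hmL J).continuous.comp d.sη.continuous).continuousOn
  obtain ⟨T, hT⟩ := exists_clm (S := c.S R) (fun h => d.cK (c1 h))
    (fun h h' x _ => by rw [val_add, ad (c1 h) (c1 h')]; push_cast; ring)
    (fun r h x _ => by rw [val_smul, c.KM_smul]; simp [mul_assoc]) (C := C * √|S₀|) (by positivity)
    fun h x hx => by simpa [mul_assoc] using hC _ _ x (S_norm hx) fun y _ => norm_val_le hS hk h _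
  obtain ⟨T', hT'⟩ := exists_clm (S := c.S R) (fun h => (d.chm (J := J) (c2 h)).continuousOn)
    (fun h h' x _ => by simp [val_add, ← hmL_apply])
    (fun r h x _ => by simp [val_smul, ← hmL_apply]) (C := |D| * √|S₀|) (by positivity)
    fun h x hx => by
      rw [← hmL_apply, mul_assoc]
      exact ((hmL J (η x)).le_of_opNorm_le ((hD x hx).trans (le_abs_self D)) _).trans
        (by gcongr; exact norm_val_le hS hk h x)
  obtain ⟨L, hL⟩ := exists_int (S := c.S R) F.μ
  let f₀ : C(c.S R, ℂ) := ⟨_, (d.cK ha).domRestrict⟩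
  let g₀ : C(c.S R, ℂ) := ⟨_, (d.chm (J := J) hφ).continuousOn.domRestrict⟩
  have e1 : ∀ (h : F.H k p) (x : c.S R), NormedSpace.exp (f₀ + T h) x =
      c.ph ρ (a + F.val k p h) x := fun h x => by
    rw [exp_apply, ph, ad ha (c1 h)]; simp [hT, f₀, add_mul]
  have e2 : ∀ (h : F.H k q) (x : c.S R), (g₀ + T' h) x = hm J (η x) ((φ + F.val k q h) x) :=
    fun h x => by simp [hT', g₀, ← hmL_apply]
  have e : (fun z : F.H k p × F.H k q => c.l ρ J η (a + F.val k p z.1) (φ + F.val k q z.2)) =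
      fun z => L (NormedSpace.exp (f₀ + T z.1) * (g₀ + T' z.2)) := funext fun z =>
    (hL _ _ (fun x => by rw [ContinuousMap.mul_apply, e1, e2]) fun x hx => by
      rw [d.hm_off hx, mul_zero]).symm
  rw [e]
  refine ⟨L.contDiff.comp (((contDiff_iff_contDiffAt.2 fun f =>
    (NormedSpace.exp_analytic (𝕂 := ℝ) f).contDiffAt).comp
    (contDiff_const.add (T.contDiff.comp contDiff_fst))).mul
    (contDiff_const.add (T'.contDiff.comp contDiff_snd))), fun z v => ?_⟩
  refine (congrArg (· v) (L.hasFDerivAt.comp z (((hasFDerivAt_exp (𝕂 := ℝ)).comp z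
    ((T.hasFDerivAt.comp z hasFDerivAt_fst).const_add f₀)).mul
    ((T'.hasFDerivAt.comp z hasFDerivAt_snd).const_add g₀))).fderiv).trans ?_
  refine hL _ _ (fun x => ?_) fun x hx => by simp [d.hm_off hx]
  rw [← e1, ← e2, ← hT, ← hT']
  simp
  ring

end Dat

end Ch

end Crest.Agent.X212.Kop92
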