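import Crest.Agent.X212.Kop92.Core
import Crest.Agent.X212.Met55.Vol
import Crest.Agent.X212.Sob92.Iso
import Crest.Agent.X212.An.Gauge

/-!
# Row 212, layer S (helper92): the operator `K` in a global chart `Ξ : X → M`
-/

set_option autoImplicit false
set_option linter.unusedSectionVars false
noncomputable section
open scoped Manifold ContDiff Topology InnerProductSpace
open MeasureTheory Set Function Filter Metric

namespace Crest.Agent.X212.Kop92
open An Sob92 Met55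

variable {E : Type} [NormedAddCommGroup E] [NormedSpace ℝ E] [FiniteDimensional ℝ E]
  [MeasurableSpace E] [BorelSpace E]
  {HM : Type} [TopologicalSpace HM] {I : ModelWithCorners ℝ E HM} [I.Boundaryless]
  {M : Type} [TopologicalSpace M] [ChartedSpace HM M] [IsManifold I ∞ M]
  [MeasurableSpace M] [T2Space M] [BorelSpace M] [SecondCountableTopology M]
  {ι : Type} [Fintype ι]
  {X : Type} [NormedAddCommGroup X] [NormedSpace ℝ X] [FiniteDimensional ℝ X]
  [MeasurableSpace X] [BorelSpace X]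
  {N : Type} [NormedAddCommGroup N] [NormedSpace ℝ N]

instance : (leb X).IsAddHaarMeasure := by unfold leb; infer_instance

/-- logarithms of unitary functions on a vector space -/
theorem exists_log {U : X → ℂ} {β : X → X →L[ℝ] ℝ} (h1 : ∀ y, ‖U y‖ = 1)
    (hU : ∀ y, HasFDerivAt U ((β y).smulRight (Complex.I * U y)) y) :
    ∃ χ : X → ℝ, (∀ y, HasFDerivAt χ (β y) y) ∧ ∀ y, U y = Complex.exp (χ y * Complex.I) := by
  have c : Continuous U := continuous_iff_continuousAt.2 fun y => (hU y).continuousAt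
  have m : ∀ y, U y ∈ Submonoid.unitSphere ℂ := fun y => by
    simpa [Submonoid.unitSphere] using h1 y
  let f : C(X, Circle) := ⟨fun y => ⟨U y, m y⟩, c.subtype_mk m⟩
  obtain ⟨e, he⟩ := Circle.exp_surjective (f 0)
  obtain ⟨χ, ⟨-, h2⟩, -⟩ := Circle.isCoveringMap_exp.existsUnique_continuousMap_lifts f 0 e he
  have h3 : ∀ y, U y = Complex.exp (χ y * Complex.I) := fun y =>
    (congrArg (fun z : Circle => (z : ℂ)) (congrFun h2 y)).symm
  refine ⟨χ, fun y => ?_, h3⟩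
  have h0 : U y ≠ 0 := by rw [h3]; exact Complex.exp_ne_zero _
  have h4 := (Complex.imCLM.hasFDerivAt.comp y ((Complex.hasStrictFDerivAt_log_real
    (x := U y * (U y)⁻¹) (by simp [h0])).hasFDerivAt.comp y ((hU y).mul_const (U y)⁻¹))).const_add
    (χ y)
  refine (h4.congr_of_eventuallyEq ?_).congr_fderiv ?_
  · have : Tendsto (fun z => χ z - χ y) (𝓝 y) (𝓝 0) :=
      (χ.continuous.sub continuous_const).tendsto' _ _ (sub_self _)
    filter_upwards [this.eventually (Ioo_mem_nhds (neg_lt_zero.2 Real.pi_pos) Real.pi_pos)]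
      with z hz
    simp only [comp_apply, h3, ← Complex.exp_neg, ← Complex.exp_add]
    rw [Complex.log_exp (by simpa using by linarith [hz.1]) (by simpa using by linarith [hz.2])]
    simp
  · ext v
    have : (U y)⁻¹ * (β y v * (Complex.I * U y)) = β y v * Complex.I := by field_simp
    simp [h0, this]

/-- the density of a measure on the model space -/
theorem exists_j (G : Pre 𝓘(ℝ, X) X ι) : ∃ j : X → ℝ, ContDiff ℝ ∞ j ∧ (∀ y, 0 < j y) ∧
    G.μ = (leb X).withDensity fun y => ENNReal.ofReal (j y) := by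
  choose O ρ h1 h2 h3 using G.dens
  simp only [HasDens, extChartAt_model_space_eq_id, PartialEquiv.refl_coe, image_id,
    Measure.map_id] at h1 h2 h3
  have e : ∀ x x', EqOn (ρ x) (ρ x') (O x ∩ O x') := fun x x' => by
    have o := (h1 x).1.inter (h1 x').1
    have c := (h2 x).continuousOn.mono (inter_subset_left (t := O x'))
    have c' := (h2 x').continuousOn.mono (inter_subset_right (s := O x))
    have k : ∀ {z}, O x ∩ O x' ⊆ O z → G.μ.restrict (O x ∩ O x') =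
        ((leb X).restrict (O x ∩ O x')).withDensity fun y => ENNReal.ofReal (ρ z y) := fun h => by
      rw [← Measure.restrict_restrict_of_subset h, (h1 _).2.2.2,
        restrict_withDensity o.measurableSet, Measure.restrict_restrict_of_subset h]
    have a := (withDensity_eq_iff_of_sigmaFinite (c.aemeasurable o.measurableSet).ennreal_ofReal
      (c'.aemeasurable o.measurableSet).ennreal_ofReal).1
      ((k inter_subset_left).symm.trans (k inter_subset_right))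
    refine Measure.eqOn_open_of_ae_eq (μ := leb X) ?_ o c c'
    filter_upwards [a, ae_restrict_mem o.measurableSet] with y hy hy'
    exact (ENNReal.ofReal_eq_ofReal_iff (h3 x y hy'.1).le (h3 x' y hy'.2).le).1 hy
  have e' : ∀ x, ∀ y ∈ O x, ρ y y = ρ x y := fun x y hy => e y x ⟨(h1 y).2.1, hy⟩
  have n := fun x => (h1 x).1.mem_nhds (h1 x).2.1
  refine ⟨fun y => ρ y y, contDiff_iff_contDiffAt.2 fun x => ((h2 x).contDiffAt
    (n x)).congr_of_eventuallyEq (eventually_of_mem (n x) (e' x)), fun y => h3 y y (h1 y).2.1,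
    Int54.ext_loc fun x => ⟨O x, n x, ?_⟩⟩
  rw [(h1 x).2.2.2, restrict_withDensity (h1 x).1.measurableSet]
  exact withDensity_congr_ae ((ae_restrict_mem (h1 x).1.measurableSet).mono fun y hy => by
    simp only [e' x y hy])

variable (X) in
/-- a global chart with the transported frame and measure -/
structure Ch (F : Pre I M ι) where
  G : Pre 𝓘(ℝ, X) X ι
  Ξ : OpenPartialHomeomorph X M
  src : Ξ.source = univ
  iso : Iso G F Ξ

variable {F : Pre I M ι}

theorem exists_ch (hF : F.IsVol) {Ξ : OpenPartialHomeomorph X M} (src : Ξ.source = univ)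
    (h1 : ContMDiffOn 𝓘(ℝ, X) I ∞ Ξ Ξ.source) (h2 : ContMDiffOn I 𝓘(ℝ, X) ∞ Ξ.symm Ξ.target) :
    ∃ c : Ch X F, c.Ξ = Ξ :=
  have l := fun y => ld_of_oph h1 h2 (x := y) (src ▸ mem_univ y)
  ⟨⟨(rFr _ fun y => (pre_fAt F _).pbv (l y)).toPre, Ξ, src,
    iso_vol (rFr_vol _ _) hF h1 h2 fun a y _ => pbv_rel (l y) (F.e a)⟩, rfl⟩

namespace Ch
variable (c : Ch X F)

theorem mem (y : X) : y ∈ c.Ξ.source := c.src ▸ mem_univ y

theorem map (y : X) : c.Ξ y ∈ c.Ξ.target := c.Ξ.map_source (c.mem y)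

@[simp] theorem inv (y : X) : c.Ξ.symm (c.Ξ y) = y := c.Ξ.left_inv (c.mem y)

theorem sm : ContMDiff 𝓘(ℝ, X) I ∞ c.Ξ := fun y => iso_smAt c.iso (c.mem y)

theorem cont : Continuous c.Ξ := c.sm.continuous

theorem smAt {x : M} (hx : x ∈ c.Ξ.target) : ContMDiffAt I 𝓘(ℝ, X) ∞ c.Ξ.symm x :=
  c.iso.sm'.contMDiffAt (c.Ξ.open_target.mem_nhds hx)

/-- the coefficients of a vector in the frame -/
def θ (y : X) : X →L[ℝ] Eu ι := LinearMap.toContinuousLinearMap
  { toFun := fun v => WithLp.toLp 2 (th (Module.finBasis ℝ X) (atx c.G.e y) v)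
    map_add' := fun v w => by rw [th_add]; rfl
    map_smul' := fun r v => by rw [th_smul]; rfl }

theorem contDiff_θ : ContDiff ℝ ∞ c.θ := contDiff_clm_apply_iff.2 fun v =>
  contDiff_euclidean.2 fun a => contDiff_iff_contDiffAt.2 fun y =>
    (sm_fT (fun a => c.G.sm a y) (pre_sp c.G y) (X := fun _ => v)
      (contMDiffAt_vectorSpace_iff_contDiffAt.2 contDiffAt_const) a).contDiffAt

theorem P_θ {F : Fr I M ι} (c : Ch X F.toPre) (y v : X) (a : ι) :
    ∑ b, F.P a b (c.Ξ y) * c.θ y v b = c.θ y v a := by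
  simp only [fr_P, ← fP_rel (ld_of_oph c.iso.sm c.iso.sm' (c.mem y)) (pre_sp c.G y)
    fun a => c.iso.e a y (c.mem y)]
  exact congrFun ((pre_sp c.G y).prj_th v) a

theorem fderiv_eq {u : M → N} {y : X} (hu : MDifferentiableAt I 𝓘(ℝ, N) u (c.Ξ y)) :
    HasFDerivAt (u ∘ c.Ξ) (∑ a, (EuclideanSpace.proj a ∘L c.θ y).smulRight (F.D a u (c.Ξ y))) y := by
  have d := (hu.comp y ((c.sm y).mdifferentiableAt (by simp))).differentiableAt
  refine d.hasFDerivAt.congr_fderiv (ContinuousLinearMap.ext fun v => ?_)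
  have := dv_fT (pre_sp c.G y) (fun _ => v) (u ∘ c.Ξ)
  simp only [← Pre.D_def, iso_D_comp c.iso (c.mem y) hu] at this
  rw [dv, mfderiv_eq_fderiv] at this
  rw [sum_apply]
  exact this

/-- the one-form with the frame components `a`, in the chart -/
def pb (a : M → Eu ι) (y : X) : X →L[ℝ] ℝ := innerSL ℝ (a (c.Ξ y)) ∘L c.θ y

theorem pb_apply (a : M → Eu ι) (y v : X) : c.pb a y v = ⟪a (c.Ξ y), c.θ y v⟫_ℝ := rfl

theorem contDiff_pb {n : ℕ∞} {a : M → Eu ι} (ha : ContDiff ℝ n (a ∘ c.Ξ)) :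
    ContDiff ℝ n (c.pb a) :=
  ((innerSL ℝ).contDiff.comp ha).clm_comp (c.contDiff_θ.of_le (by exact_mod_cast le_top))

theorem continuous_pb {a : M → Eu ι} (ha : Continuous (a ∘ c.Ξ)) : Continuous (c.pb a) :=
  (c.contDiff_pb (n := 0) (contDiff_zero.2 ha)).continuous

/-- the operator `K` on `M` -/
def KM (ρ : X → ℝ) (a : M → Eu ι) (x : M) : ℝ := K (leb X) ρ (c.pb a) (c.Ξ.symm x)

variable {ρ : X → ℝ} {R : ℝ} {a b : M → Eu ι} {x : M}

theorem KM_add (hρ : Continuous ρ) (hR : Sp R ρ) (ha : Continuous (a ∘ c.Ξ))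
    (hb : Continuous (b ∘ c.Ξ)) (x : M) : c.KM ρ (a + b) x = c.KM ρ a x + c.KM ρ b x := by
  rw [KM, show c.pb (a + b) = c.pb a + c.pb b from funext fun y => by
    ext v; simp [pb_apply, inner_add_left], K_add hρ hR (c.continuous_pb ha) (c.continuous_pb hb)]
  rfl

theorem KM_smul (r : ℝ) (x : M) : c.KM ρ (r • a) x = r * c.KM ρ a x := by
  rw [KM, show c.pb (r • a) = r • c.pb a from funext fun y => by
    ext v; simp [pb_apply, real_inner_smul_left], K_smul]
  rfl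

/-- locality -/
theorem KM_congr (hR : Sp R ρ) (hx : ‖c.Ξ.symm x‖ ≤ R) (h : ∀ y, ‖y‖ ≤ R → a (c.Ξ y) = b (c.Ξ y)) :
    c.KM ρ a x = c.KM ρ b x := K_congr hR hx fun y hy => by rw [pb, pb, h y hy]

theorem exists_KM_le (hρ : Continuous ρ) (hR : Sp R ρ) : ∃ C, 0 ≤ C ∧ ∀ (a : M → Eu ι) (s : ℝ) x,
    ‖c.Ξ.symm x‖ ≤ R → (∀ y, ‖y‖ ≤ R → ‖a (c.Ξ y)‖ ≤ s) → |c.KM ρ a x| ≤ C * s := by
  obtain ⟨C, hC⟩ := (isCompact_closedBall (0 : X) R).exists_bound_of_continuousOn
    c.contDiff_θ.continuous.continuousOn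
  refine ⟨|2 * R * ∫ y, |ρ y| ∂leb X| * |C|, by positivity, fun a s x hx h => ?_⟩
  have s0 : 0 ≤ s := (norm_nonneg _).trans (h _ hx)
  refine (abs_K_le hρ hR hx (c := |C| * s) fun y hy => ?_).trans ?_
  · refine (ContinuousLinearMap.opNorm_comp_le _ _).trans ?_
    rw [innerSL_apply_norm, mul_comm]
    gcongr
    exacts [(hC y (by simpa using hy)).trans (le_abs_self C), h y hy]
  · rw [mul_assoc _ |C|]; gcongr; exact le_abs_self _

theorem contMDiffAt_KM (hρ : ContDiff ℝ ∞ ρ) (hR : Sp R ρ) (ha : Sm I a) (hx : x ∈ c.Ξ.target) :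
    ContMDiffAt I 𝓘(ℝ, ℝ) ∞ (c.KM ρ a) x :=
  (contDiff_K hρ hR (c.contDiff_pb (ha.comp c.sm).contDiff)).contMDiff.contMDiffAt.comp x
    (c.smAt hx)

theorem continuousOn_KM (hρ : Continuous ρ) (hR : Sp R ρ) (ha : Continuous (a ∘ c.Ξ)) :
    ContinuousOn (c.KM ρ a) c.Ξ.target :=
  (continuous_K hρ hR (c.continuous_pb ha)).comp_continuousOn c.Ξ.continuousOn_symm

/-- `K dχ = χ - mean` -/
theorem KM_d (hρ : Continuous ρ) (hR : Sp R ρ) (h1 : ∫ y, ρ y ∂leb X = 1) {χ : M → ℝ}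
    (hχ : ∀ x ∈ c.Ξ.target, MDifferentiableAt I 𝓘(ℝ, ℝ) χ x) (hb : Continuous (b ∘ c.Ξ))
    (e : ∀ x ∈ c.Ξ.target, ∀ i, b x i = F.D i χ x) (hx : x ∈ c.Ξ.target) :
    c.KM ρ b x = χ x - ∫ y, ρ y * χ (c.Ξ y) ∂leb X := by
  rw [KM, K_d hρ hR h1 (χ := χ ∘ c.Ξ) (fun y => (c.fderiv_eq (hχ _ (c.map y))).congr_fderiv
    (by ext v; simp [pb_apply, PiLp.inner_apply, e _ (c.map y)])) (c.continuous_pb hb),
    comp_apply, c.Ξ.right_inv hx]
  rfl

/-- the same for circle valued functions -/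
theorem KM_log (hρ : Continuous ρ) (hR : Sp R ρ) (h1 : ∫ y, ρ y ∂leb X = 1) {u : M → ℂ}
    (hu : ∀ x ∈ c.Ξ.target, MDifferentiableAt I 𝓘(ℝ, ℂ) u x) (u1 : ∀ x ∈ c.Ξ.target, ‖u x‖ = 1)
    (hb : Continuous (b ∘ c.Ξ))
    (e : ∀ x ∈ c.Ξ.target, ∀ i, F.D i u x = b x i • (Complex.I * u x)) :
    ∃ ζ : ℂ, ‖ζ‖ = 1 ∧ ∀ x ∈ c.Ξ.target, u x = ζ * Complex.exp (c.KM ρ b x * Complex.I) := by
  obtain ⟨χ, k1, k2⟩ := exists_log (U := u ∘ c.Ξ) (β := c.pb b) (fun y => u1 _ (c.map y))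
    fun y => (c.fderiv_eq (hu _ (c.map y))).congr_fderiv (by
      ext v
      simp [pb_apply, PiLp.inner_apply, e _ (c.map y), Finset.sum_mul, mul_assoc])
  refine ⟨Complex.exp ((∫ y, ρ y * χ y ∂leb X : ℝ) * Complex.I), Complex.norm_exp_ofReal_mul_I _,
    fun x hx => ?_⟩
  rw [KM, K_d hρ hR h1 k1 (c.continuous_pb hb), ← Complex.exp_add, ← add_mul,
    ← Complex.ofReal_add, add_sub_cancel, ← k2, comp_apply, c.Ξ.right_inv hx]

theorem integral_eq {g : M → ℝ} (hg : Continuous (g ∘ c.Ξ)) (hs : support g ⊆ c.Ξ.target) :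
    ∫ x, g x ∂F.μ = ∫ y, g (c.Ξ y) ∂c.G.μ := by
  refine .trans (congrArg _ (funext fun x => ?_))
    (integral_pull (iso_symm c.iso) hg fun y _ => c.mem y)
  by_cases hx : x ∈ c.Ξ.target
  · rw [pull_of_mem hx]; exact congrArg g (c.Ξ.right_inv hx).symm
  · rw [pull_of_notMem hx]; exact notMem_support.1 fun h => hx (hs h)

theorem sp_comp {g : M → N} (hs : ∀ x, g x ≠ 0 → x ∈ c.Ξ '' closedBall 0 R) : Sp R (g ∘ c.Ξ) :=
  fun y hy => by_contra fun h => by
    obtain ⟨z, hz, e⟩ := hs _ h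
    rw [← c.inv y, ← e, c.inv] at hy
    exact hy.not_ge (by simpa using hz)

/-- **the transpose of `K` preserves smooth functions with compact support** -/
theorem exists_Ks (hρ : ContDiff ℝ ∞ ρ) (hR : Sp R ρ) {g : M → ℝ} (hg : Sm I g)
    (hs : ∀ x, g x ≠ 0 → x ∈ c.Ξ '' closedBall 0 R) : ∃ Y : M → Eu ι, Sm I Y ∧
      HasCompactSupport Y ∧ tsupport Y ⊆ c.Ξ '' closedBall 0 R ∧
      (∀ x, ∃ v, Y x = c.θ (c.Ξ.symm x) v) ∧ ∀ a : M → Eu ι, Continuous (a ∘ c.Ξ) →
        ∫ x, g x * c.KM ρ a x ∂F.μ = ∫ x, ⟪Y x, a x⟫_ℝ ∂F.μ := by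
  obtain ⟨j, j1, j2, j3⟩ := exists_j c.G
  have g1 : ContDiff ℝ ∞ fun y => j y * g (c.Ξ y) := j1.mul (hg.comp c.sm).contDiff
  have g2 : Sp R fun y => j y * g (c.Ξ y) := fun y hy => mul_eq_zero_of_right _ (c.sp_comp hs y hy)
  set Z : X → Eu ι := fun y => c.θ y ((j y)⁻¹ • Ks (leb X) ρ (fun y => j y * g (c.Ξ y)) y)
  have z1 : ContDiff ℝ ∞ Z := c.contDiff_θ.clm_apply
    ((j1.inv fun y => (j2 y).ne').smul (contDiff_Ks hρ hR g1 g2))
  have z2 : Sp R Z := fun y hy => by simp only [Z, sp_Ks hR g2 y hy, smul_zero, map_zero]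
  have z3 : tsupport Z ⊆ c.Ξ.symm.target := fun y _ => c.mem y
  have z4 := Adm.of_isCompact z2.hcs z3
  refine ⟨pull c.Ξ.symm Z, sm_pull (iso_symm c.iso) z1.contMDiff z4, hcs_pull z2.hcs z3,
    fun x hx => ?_, fun x => ?_, fun a ha => ?_⟩
  · have h := z4.tsupport_pull hx
    exact ⟨_, closure_minimal (fun y hy => by simpa using not_lt.1 fun k => hy (z2 y k))
      isClosed_closedBall h.2, c.Ξ.right_inv h.1⟩
  · by_cases hx : x ∈ c.Ξ.target
    · exact ⟨_, pull_of_mem hx Z⟩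
    · exact ⟨0, (pull_of_notMem hx Z).trans (map_zero _).symm⟩
  have p : ∀ y, pull c.Ξ.symm Z (c.Ξ y) = Z y := fun y => by rw [pull_of_mem (c.map y), c.inv]
  have k := continuous_K (μ := leb X) hρ.continuous hR (c.continuous_pb ha)
  have c1 : Continuous fun y => g (c.Ξ y) * K (leb X) ρ (c.pb a) y :=
    (hg.comp c.sm).continuous.mul k
  have c2 : Continuous fun y => ⟪Z y, a (c.Ξ y)⟫_ℝ := z1.continuous.inner ha
  rw [c.integral_eq (by simpa [comp_def, KM] using c1) fun x hx => by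
      obtain ⟨y, -, rfl⟩ := hs x (left_ne_zero_of_mul hx); exact c.map y,
    c.integral_eq (by simpa [comp_def, p] using c2) fun x hx => by_contra fun h =>
      hx (by simp [pull_of_notMem (φ := c.Ξ.symm) h]), j3,
    integral_wt _ j1.continuous fun y => (j2 y).le, integral_wt _ j1.continuous fun y => (j2 y).le]
  simp only [KM, c.inv, p, smul_eq_mul, ← mul_assoc]
  rw [integral_K hρ.continuous hR g1.continuous g2 (c.continuous_pb ha)]
  refine congrArg _ (funext fun y => ?_)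
  simp only [Z]
  rw [pb_apply, real_inner_comm, map_smul, real_inner_smul_left, mul_inv_cancel_left₀ (j2 y).ne']

end Ch

end Crest.Agent.X212.Kop92
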