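import Mathlib

/-!
# Row 212, layer S (helper92): the averaged Poincaré operator `K` on a vector space

`K (dχ) = χ - ∫ ρ χ`; `K` and its transpose preserve smoothness.
-/

set_option autoImplicit false
set_option linter.unusedSectionVars false
noncomputable section
open scoped ContDiff Topology Convolution
open MeasureTheory Set Function Filter Metric

namespace Crest.Agent.X212.Kop92

variable {X : Type} [NormedAddCommGroup X] [NormedSpace ℝ X] [FiniteDimensional ℝ X]
  [MeasurableSpace X] [BorelSpace X] (μ : Measure X) [μ.IsAddHaarMeasure]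
  {P : Type} [NormedAddCommGroup P] [NormedSpace ℝ P]
  {Z : Type} [NormedAddCommGroup Z] [NormedSpace ℝ Z] [CompleteSpace Z]

/-- the measure on directions and times -/
abbrev mm : Measure (X × ℝ) := μ.prod (volume.restrict (Ioc 0 1))

theorem ae_mm : ∀ᵐ p ∂mm μ, p.2 ∈ Icc (0 : ℝ) 1 :=
  Measure.quasiMeasurePreserving_snd.ae
    ((ae_restrict_mem measurableSet_Ioc).mono fun _ h => Ioc_subset_Icc_self h)

variable {μ}

theorem int_mm {H : X × ℝ → Z} (hH : Continuous H) {R : ℝ} (h0 : ∀ p, R < ‖p.1‖ → H p = 0) :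
    Integrable H (mm μ) :=
  (hH.continuousOn.integrableOn_compact ((isCompact_closedBall (0 : X) R).prod
    (isCompact_Icc (a := (0 : ℝ)) (b := 1)))).integrable_of_ae_notMem_eq_zero
    ((ae_mm μ).mono fun p hp h => h0 p (by simpa [hp.1, hp.2, Set.mem_prod] using h))

theorem int_mm₂ {H : X × X × ℝ → ℝ} (hH : Continuous H) {R : ℝ}
    (h0 : ∀ q, q.2.2 ∈ Icc (0 : ℝ) 1 → R < ‖q.1‖ ∨ R < ‖q.2.1‖ → H q = 0) :
    Integrable H (μ.prod (mm μ)) :=
  (hH.continuousOn.integrableOn_compact ((isCompact_closedBall (0 : X) R).prod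
    ((isCompact_closedBall (0 : X) R).prod
    (isCompact_Icc (a := (0 : ℝ)) (b := 1))))).integrable_of_ae_notMem_eq_zero
    ((Measure.quasiMeasurePreserving_snd.ae (ae_mm μ)).mono fun p hp h => h0 p hp (by
      by_contra! k; exact h (by simp [hp.1, hp.2, k.1, k.2, Set.mem_prod])))

/-- integrals depending on a parameter -/
theorem sm_mm {n : ℕ∞} {H : P × X × ℝ → Z} (hH : ContDiff ℝ n H)
    (h0 : ∀ r, ∃ R, ∀ q, ‖q.1‖ < r → R < ‖q.2.1‖ → H q = 0) :
    ContDiff ℝ n fun x => ∫ p, H (x, p) ∂mm μ := by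
  refine contDiff_iff_contDiffAt.2 fun x => ?_
  obtain ⟨R, hR⟩ := h0 (‖x‖ + 1)
  let b : ContDiffBump (0 : ℝ) := ⟨1, 2, one_pos, one_lt_two⟩
  have := contDiffOn_convolution_right_with_param_comp (μ := mm μ) (n := n)
    (ContinuousLinearMap.lsmul ℝ ℝ) (v := fun _ : P => (0 : X × ℝ)) (f := fun _ => (1 : ℝ))
    (g := fun y p => b (-p).2 • H (y, -p)) contDiffOn_const (isOpen_ball (x := 0) (ε := ‖x‖ + 1))
    ((isCompact_closedBall (0 : X) R).prod (isCompact_closedBall (0 : ℝ) 2))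
    (fun y p hy hp => ?_) (locallyIntegrable_const 1)
    (((b.contDiff.comp contDiff_snd.neg.snd).smul
      (hH.comp (contDiff_fst.prodMk contDiff_snd.neg))).contDiffOn)
  · refine (this.contDiffAt (isOpen_ball.mem_nhds (by simp))).congr_of_eventuallyEq
      (.of_forall fun y => ?_)
    simp only [convolution_def, zero_sub, neg_neg, ContinuousLinearMap.lsmul_apply, one_smul]
    refine integral_congr_ae ((ae_mm μ).mono fun p hp => ?_)
    simp only
    rw [b.one_of_mem_closedBall (by simpa [b, abs_le, hp.2] using by linarith [hp.1]), one_smul]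
  · by_cases h : R < ‖p.1‖
    · rw [hR (y, -p) (by simpa using hy) (by simpa using h), smul_zero]
    · rw [b.zero_of_le_dist, zero_smul]
      have : 2 < |p.2| := by simpa [Set.mem_prod, not_lt.1 h] using hp
      simpa [b] using this.le

variable (μ) in
/-- the averaged Poincaré operator -/
def K (ρ : X → ℝ) (β : X → X →L[ℝ] ℝ) (x : X) : ℝ :=
  -∫ p, ρ (x + p.1) * β (x + p.2 • p.1) p.1 ∂mm μ

variable (μ) in
/-- its transpose -/
def Ks (ρ g : X → ℝ) (z : X) : X :=
  -∫ p, (g (z - p.2 • p.1) * ρ (z - p.2 • p.1 + p.1)) • p.1 ∂mm μ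

/-- vanishing outside the ball of radius `R` -/
def Sp {N : Type} [Zero N] (R : ℝ) (f : X → N) : Prop := ∀ x, R < ‖x‖ → f x = 0

theorem Sp.mono {N : Type} [Zero N] {R R' : ℝ} {f : X → N} (h : Sp R f) (k : R ≤ R') : Sp R' f :=
  fun x hx => h x (k.trans_lt hx)

theorem Sp.hcs {N : Type} [Zero N] {R : ℝ} {f : X → N} (h : Sp R f) : HasCompactSupport f :=
  .intro (isCompact_closedBall 0 R) fun x hx => h x (by simpa using hx)

theorem exists_sp {N : Type} [Zero N] {f : X → N} (h : HasCompactSupport f) : ∃ R, Sp R f :=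
  let ⟨R, hR⟩ := h.isCompact.isBounded.subset_closedBall 0
  ⟨R, fun x hx => image_eq_zero_of_notMem_tsupport fun k => hx.not_ge (by simpa using hR k)⟩

variable {ρ g : X → ℝ} {β β' : X → X →L[ℝ] ℝ} {R : ℝ} {x : X}

theorem norm_le' (x w : X) : ‖w‖ ≤ ‖x + w‖ + ‖x‖ := by simpa using norm_sub_le (x + w) x

theorem Sp.add (h : Sp R ρ) (x w : X) (hw : R + ‖x‖ < ‖w‖) : ρ (x + w) = 0 :=
  h _ (by linarith [norm_le' x w])

theorem norm_seg {y w : X} {t : ℝ} (ht : t ∈ Icc (0 : ℝ) 1) (h1 : ‖y‖ ≤ R) (h2 : ‖y + w‖ ≤ R) :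
    ‖y + t • w‖ ≤ R := by
  simpa using (convex_closedBall (0 : X) R).add_smul_mem (by simpa using h1) (by simpa using h2) ht

theorem contDiff_K {n : ℕ∞} (hρ : ContDiff ℝ n ρ) (hR : Sp R ρ) (hb : ContDiff ℝ n β) :
    ContDiff ℝ n (K μ ρ β) :=
  (sm_mm (H := fun q => ρ (q.1 + q.2.1) * β (q.1 + q.2.2 • q.2.1) q.2.1) (by fun_prop)
    fun r => ⟨R + r, fun q h1 h2 => by rw [hR.add _ _ (by linarith), zero_mul]⟩).neg

theorem continuous_K (hρ : Continuous ρ) (hR : Sp R ρ) (hb : Continuous β) :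
    Continuous (K μ ρ β) :=
  (contDiff_K (n := 0) (contDiff_zero.2 hρ) hR (contDiff_zero.2 hb)).continuous

theorem Ks_zero (hR : Sp R ρ) (hg : Sp R g) (z : X) (p : X × ℝ) (h : 2 * R < ‖p.1‖) :
    g (z - p.2 • p.1) * ρ (z - p.2 • p.1 + p.1) = 0 := by
  by_cases k : R < ‖z - p.2 • p.1‖
  · rw [hg _ k, zero_mul]
  · rw [hR.add _ _ (by linarith), mul_zero]

theorem Ks_zero' (hR : Sp R ρ) (hg : Sp R g) {z : X} {p : X × ℝ} (ht : p.2 ∈ Icc (0 : ℝ) 1)
    (h : R < ‖z‖) : g (z - p.2 • p.1) * ρ (z - p.2 • p.1 + p.1) = 0 := by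
  by_contra k
  have := norm_seg ht (not_lt.1 fun e => left_ne_zero_of_mul k (hg _ e))
    (not_lt.1 fun e => right_ne_zero_of_mul k (hR _ e))
  rw [sub_add_cancel] at this
  exact h.not_ge this

theorem contDiff_Ks {n : ℕ∞} (hρ : ContDiff ℝ n ρ) (hR : Sp R ρ) (hg : ContDiff ℝ n g)
    (hg' : Sp R g) : ContDiff ℝ n (Ks μ ρ g) :=
  (sm_mm (H := fun q => (g (q.1 - q.2.2 • q.2.1) * ρ (q.1 - q.2.2 • q.2.1 + q.2.1)) • q.2.1)
    (by fun_prop) fun _ => ⟨2 * R, fun q _ h2 => by rw [Ks_zero hR hg' _ _ h2, zero_smul]⟩).neg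

theorem sp_Ks (hR : Sp R ρ) (hg : Sp R g) : Sp R (Ks μ ρ g) := fun z hz => by
  rw [Ks, integral_congr_ae (g := 0) ((ae_mm μ).mono fun p hp => by
    simp only [Ks_zero' hR hg hp hz, zero_smul, Pi.zero_apply])]
  simp

theorem int_K (hρ : Continuous ρ) (hR : Sp R ρ) (hb : Continuous β) (x : X) :
    Integrable (fun p : X × ℝ => ρ (x + p.1) * β (x + p.2 • p.1) p.1) (mm μ) :=
  int_mm (by fun_prop) fun p h => by rw [hR.add _ _ h, zero_mul]

theorem K_add (hρ : Continuous ρ) (hR : Sp R ρ) (hb : Continuous β) (hb' : Continuous β') (x : X) :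
    K μ ρ (β + β') x = K μ ρ β x + K μ ρ β' x := by
  simp only [K, Pi.add_apply, add_apply, mul_add, neg_add,
    integral_add (int_K hρ hR hb x) (int_K hρ hR hb' x)]

theorem K_smul (c : ℝ) (x : X) : K μ ρ (c • β) x = c * K μ ρ β x := by
  simp only [K, Pi.smul_apply, smul_apply, smul_eq_mul, mul_left_comm _ c,
    integral_const_mul, mul_neg]

/-- `K β x` depends only on `β` in a ball containing `x` and the support of `ρ` -/
theorem K_congr (hR : Sp R ρ) (hx : ‖x‖ ≤ R) (h : ∀ y, ‖y‖ ≤ R → β y = β' y) :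
    K μ ρ β x = K μ ρ β' x := by
  refine congrArg Neg.neg (integral_congr_ae ((ae_mm μ).mono fun p hp => ?_))
  by_cases k : R < ‖x + p.1‖
  · simp [hR _ k]
  · simp only [h _ (norm_seg hp hx (not_lt.1 k))]

theorem abs_K_le (hρ : Continuous ρ) (hR : Sp R ρ) (hx : ‖x‖ ≤ R) {c : ℝ}
    (h : ∀ y, ‖y‖ ≤ R → ‖β y‖ ≤ c) : |K μ ρ β x| ≤ (2 * R * ∫ y, |ρ y| ∂μ) * c := by
  rw [K, abs_neg, ← Real.norm_eq_abs]
  refine (norm_integral_le_of_norm_le (g := fun p => |ρ (x + p.1)| * (2 * R * c))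
    (int_mm (by fun_prop) fun p h => by rw [hR.add _ _ h, abs_zero, zero_mul])
    ((ae_mm μ).mono fun p hp => ?_)).trans_eq ?_
  · by_cases k : R < ‖x + p.1‖
    · simp [hR _ k]
    rw [norm_mul, Real.norm_eq_abs]
    have h1 := h _ (norm_seg hp hx (not_lt.1 k))
    have h2 : ‖p.1‖ ≤ 2 * R := by linarith [norm_le' x p.1]
    gcongr
    exact ((β _).le_of_opNorm_le h1 _).trans (by
      rw [mul_comm]; gcongr; exact (norm_nonneg _).trans h1)
  · rw [integral_fun_fst fun w => |ρ (x + w)| * (2 * R * c), integral_mul_const,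
      integral_add_left_eq_self fun w => |ρ w|]
    simp; ring

/-- **`K d = 1 - mean`** -/
theorem K_d (hρ : Continuous ρ) (hR : Sp R ρ) (h1 : ∫ y, ρ y ∂μ = 1) {χ : X → ℝ}
    (hχ : ∀ y, HasFDerivAt χ (β y) y) (hb : Continuous β) (x : X) :
    K μ ρ β x = χ x - ∫ y, ρ y * χ y ∂μ := by
  have c : Continuous χ := continuous_iff_continuousAt.2 fun y => (hχ y).continuousAt
  have e : ∀ w, ∫ t in Ioc (0 : ℝ) 1, β (x + t • w) w = χ (x + w) - χ x := fun w => by
    rw [← intervalIntegral.integral_of_le zero_le_one,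
      intervalIntegral.integral_eq_sub_of_hasDerivAt (f := fun t : ℝ => χ (x + t • w))
      (fun t _ => by
        simpa [comp_def] using
          (hχ _).comp_hasDerivAt t (((hasDerivAt_id t).smul_const w).const_add x))
      (Continuous.intervalIntegrable (by fun_prop) _ _)]
    simp
  rw [K, integral_prod _ (int_K hρ hR hb x)]
  simp only [integral_const_mul, e]
  rw [integral_add_left_eq_self (fun y => ρ y * (χ y - χ x)) x]
  simp only [mul_sub]
  rw [integral_sub (f := fun y => ρ y * χ y)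
    ((hρ.mul c).integrable_of_hasCompactSupport hR.hcs.mul_right)
    ((hρ.integrable_of_hasCompactSupport hR.hcs).mul_const _), integral_mul_const, h1]
  ring

/-- **the transpose** -/
theorem integral_K (hρ : Continuous ρ) (hR : Sp R ρ) (hg : Continuous g) (hg' : Sp R g)
    (hb : Continuous β) : ∫ x, g x * K μ ρ β x ∂μ = ∫ z, β z (Ks μ ρ g z) ∂μ := by
  have i1 : Integrable (fun q : X × X × ℝ => g q.1 * (ρ (q.1 + q.2.1) *
      β (q.1 + q.2.2 • q.2.1) q.2.1)) (μ.prod (mm μ)) :=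
    int_mm₂ (R := 2 * |R|) (by fun_prop) fun q _ h => by
      by_cases k : R < ‖q.1‖
      · rw [hg' _ k, zero_mul]
      · rw [hR.add _ _ (by
          rcases h with h | h <;> linarith [le_abs_self R, abs_nonneg R]), zero_mul, mul_zero]
  have i2 : Integrable (fun q : X × X × ℝ => β q.1 ((g (q.1 - q.2.2 • q.2.1) *
      ρ (q.1 - q.2.2 • q.2.1 + q.2.1)) • q.2.1)) (μ.prod (mm μ)) :=
    int_mm₂ (R := 2 * |R|) (by fun_prop) fun q ht h => by
      rcases h with h | h
      · rw [Ks_zero' hR hg' ht (by linarith [le_abs_self R, abs_nonneg R]), zero_smul, map_zero]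
      · rw [Ks_zero hR hg' _ _ (by linarith [le_abs_self R]), zero_smul, map_zero]
  have e : ∀ z, β z (Ks μ ρ g z) = -∫ p, β z ((g (z - p.2 • p.1) *
      ρ (z - p.2 • p.1 + p.1)) • p.1) ∂mm μ := fun z => by
    rw [Ks, map_neg, (β z).integral_comp_comm
      (int_mm (by fun_prop) fun p h => by rw [Ks_zero hR hg' _ _ h, zero_smul])]
  simp only [e, K, mul_neg, integral_neg, ← integral_const_mul]
  rw [integral_integral_swap i1, integral_integral_swap (f := fun z (p : X × ℝ) =>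
    β z ((g (z - p.2 • p.1) * ρ (z - p.2 • p.1 + p.1)) • p.1)) i2]
  refine congrArg Neg.neg (integral_congr_ae (.of_forall fun p => ?_))
  simp only
  rw [← integral_sub_right_eq_self _ (p.2 • p.1)]
  simp [mul_assoc]

end Crest.Agent.X212.Kop92
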